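import Vale.Agent.P092.UN.StF
import Vale.Agent.P092.UN.StE
import Vale.Agent.P092.UN.FinW
import Vale.Agent.P092.H144.Mp.LatF
import Vale.Agent.P092.H259.Mx.FinP
import Vale.Agent.P092.SX.EndT
import Vale.Agent.P092.SNPT.End
import Vale.Agent.P092.H677.SuS
import Vale.Agent.P092.H677.SuP
import Vale.Agent.P092.H678.P.EuF
import Vale.Agent.P092.H678.P.EuW

/-!
P092: the conclusion of Q1, all amplifications included, for the ICC lattices of the class `LatticeF`
(products of simple groups, every irreducible component of which has at least two factors or is of type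
`A_n`, `n ≥ 2`) and for the ICC groups with a subgroup of finite index of the class `LatticeW` (lattices
of `Sp(J)`, `SU(J)`, `Ω(J)` of Witt index at least two over non-archimedean local fields, two over `ℝ`
and `ℂ`), with examples.
-/

open Vale.Agent.P092.UN
open scoped NumberField

theorem Vale.Agent.Results.P092.HigherRank.result :
    (∀ (Γ : Type) [Group Γ], LatticeF Γ → SuperAll Γ) ∧
    (∀ (Γ : Type) [Group Γ] (Γ₀ : Subgroup Γ), ICC Γ → Γ₀.FiniteIndex → LatticeW Γ₀ →
      SuperAll Γ) ∧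
    (∀ n, 3 ≤ n → Odd n → SuperAll (Matrix.SpecialLinearGroup (Fin n) ℤ)) ∧
    (∀ (K : Type) [Field K] [NumberField K] (S : Set (IsDedekindDomain.HeightOneSpectrum (𝓞 K))),
      S.Finite →
      (∀ n, 2 ≤ n → 3 ≤ n ∨ S.Nonempty ∨ 2 ≤ Fintype.card (NumberField.InfinitePlace K) →
        SuperSL (S.integer K) n) ∧
      ∀ n, 1 ≤ n → n = 2 ∨ S.Nonempty ∨ 2 ≤ Fintype.card (NumberField.InfinitePlace K) →
        SuperSp (S.integer K) n) ∧
    ∀ (F : Type) [Field F] [Finite F],
      (∀ n, 3 ≤ n → SuperSL (Polynomial F) n) ∧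
      ∀ n, 2 ≤ n → (2 : F) ≠ 0 → SuperSp (Polynomial F) n :=
  ⟨Vale.Agent.P092.H144.Mp.superAll_latticeF_of Vale.Agent.P092.H259.Mx.mixStmtP
      Vale.Agent.P092.SX.EndT.superAllP,
    fun _ _ _ hi hf h => superAll_virtW hi hf h,
    Vale.Agent.P092.SNPT.End.superAllZ,
    fun K _ _ S hS => ⟨fun n hn h => Vale.Agent.P092.H677.OK.superAll_psl_OKS K S n hS hn h,
      fun n hn h => Vale.Agent.P092.H677.SP.superAll_psp_OKS K S n hS hn h⟩,
    fun F _ _ => ⟨fun n hn => Vale.Agent.P092.H678.superSL_poly F n hn,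
      fun n hn h2 => latticeW_superAll _ (Vale.Agent.P092.H678.P.latticeW_poly F h2 n hn)⟩⟩
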