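import Vale.Agent.P092.UN.Sl3B
import Vale.Agent.P092.SN.End

/-!
P092: the conclusion of Q1, all amplifications included, for every ICC lattice of `SL_3(k)`, where
`k = ℝ` or `k` is a non-archimedean local field of any characteristic, in particular for `SL_3(ℤ)`;
its `t = 1` part for every ICC lattice of `SL_n(k)/Z`, `Z` central, `n ≥ 3`, `k` any local field, in
particular for `PSL_n(ℤ)`.
-/

open Vale.Agent.P092.UN

theorem Vale.Agent.Results.P092.LatticeSuper.result :
    (∀ (Γ : Type) [Group Γ], Lattice3 ℝ Γ → SuperAll Γ) ∧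
    (∀ (k : Type) [NontriviallyNormedField k] [ProperSpace k] [IsUltrametricDist k]
      (Γ : Type) [Group Γ], Lattice3 k Γ → SuperAll Γ) ∧
    SuperAll (Matrix.SpecialLinearGroup (Fin 3) ℤ) ∧
    (∀ (Γ : Type) [Group Γ], LatticeS Γ → Super Γ) ∧
    ∀ n : ℕ, 3 ≤ n → Super (Matrix.SpecialLinearGroup (Fin n) ℤ ⧸
      Subgroup.center (Matrix.SpecialLinearGroup (Fin n) ℤ)) :=
  ⟨real_superAll, na_superAll3, sl3z_superAll, Vale.Agent.P092.SN.End.superS,
    Vale.Agent.P092.SN.End.superPZ⟩
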