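import Vale.Agent.P092.QCT.FinB

/-!
P092: ICC lattices, reducible or not, with dense projections to all factors, in finite products of
groups which contain a classical group over a local field, or a connected simple real Lie group, as
an open normal subgroup of finite index, satisfy the full conclusion of Q1.
-/

open Vale.Agent.P092.UN

theorem Vale.Agent.Results.P092.ProductSuper.result :
    (∀ (Γ : Type) [Group Γ], ClassLatticeB Γ → SuperAll Γ) ∧
    (∀ n N : ℕ, 2 ≤ n → 2 ≤ N →
      SuperAll (Matrix.SpecialLinearGroup (Fin n) (Localization.Away (N : ℤ)) ⧸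
        Subgroup.center (Matrix.SpecialLinearGroup (Fin n) (Localization.Away (N : ℤ)))) ∧
      SuperAll (GL (Fin n) (Localization.Away (N : ℤ)) ⧸
        Subgroup.center (GL (Fin n) (Localization.Away (N : ℤ))))) ∧
    ∀ (F : Type) [Field F] [Finite F] (n : ℕ), 2 ≤ n →
      SuperAll (Matrix.SpecialLinearGroup (Fin n) (LaurentPolynomial F) ⧸
        Subgroup.center (Matrix.SpecialLinearGroup (Fin n) (LaurentPolynomial F))) :=
  Vale.Agent.P092.QCT.finalB
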